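import Vale.Agent.Lib.P100.Main

namespace Vale.Agent.Results.P100.DegenerateCases

/-- Henon-Lane-Emden system, degenerate parameter ranges: for every dimension n at least 2,
all exponents p, q > 0 and all real weight exponents A, B such that n = 2 or A is at most -2
or B is at most -2, there is no positive entire solution (u, v continuous on the whole space,
twice continuously differentiable away from the origin, positive everywhere, solving both
equations away from the origin). No subcriticality assumption is needed. -/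
theorem result (n : ℕ) (hn : 2 ≤ n) (p q A B : ℝ) (hp : 0 < p) (hq : 0 < q)
    (hdeg : n = 2 ∨ A ≤ -2 ∨ B ≤ -2)
    (u v : EuclideanSpace ℝ (Fin n) → ℝ)
    (hu : Continuous u) (hv : Continuous v)
    (hu2 : ContDiffOn ℝ 2 u {0}ᶜ) (hv2 : ContDiffOn ℝ 2 v {0}ᶜ)
    (hupos : ∀ x, 0 < u x) (hvpos : ∀ x, 0 < v x)
    (h1 : ∀ x, x ≠ 0 → -(Laplacian.laplacian u x) = ‖x‖ ^ A * (v x) ^ p)
    (h2 : ∀ x, x ≠ 0 → -(Laplacian.laplacian v x) = ‖x‖ ^ B * (u x) ^ q) : False :=
  Vale.Agent.Lib.P100.no_solution_degenerate n hn p q A B hp hq hdeg u v hu hv hu2 hv2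
    hupos hvpos h1 h2

end Vale.Agent.Results.P100.DegenerateCases
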